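import Mathlib

namespace Vale.Agent.Results.P110.FlatnessDefect

open Finset

/-- The value at z of the polynomial of length N with coefficient sequence e. -/
noncomputable def lit (N : ℕ) (e : ℕ → ℤ) (z : ℂ) : ℂ := ∑ k ∈ range N, (e k : ℂ) * z ^ k

theorem orth {M : ℕ} {ζ : ℂ} (hζ : IsPrimitiveRoot ζ M) (l : ℕ) :
    ∑ j ∈ range M, (ζ ^ l) ^ j = if M ∣ l then (M : ℂ) else 0 := by
  split_ifs with h
  · have h1 : ζ ^ l = 1 := (hζ.pow_eq_one_iff_dvd l).2 h
    rw [h1]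
    simp
  · have h1 : ζ ^ l ≠ 1 := fun h' => h ((hζ.pow_eq_one_iff_dvd l).1 h')
    have h2 : (ζ ^ l) ^ M = 1 := by
      rw [← pow_mul, mul_comm, pow_mul, hζ.pow_eq_one, one_pow]
    have h3 := geom_sum_mul (ζ ^ l) M
    rw [h2, sub_self] at h3
    rcases mul_eq_zero.1 h3 with h4 | h4
    · exact h4
    · exact absurd (sub_eq_zero.1 h4) h1

theorem conj_pow_root {M : ℕ} (hM : 0 < M) {w : ℂ} (hw : w ^ M = 1) (t : ℕ) (ht : t ≤ M) :
    (starRingEnd ℂ) (w ^ t) = w ^ (M - t) := by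
  have hn : ‖w‖ = 1 := Complex.norm_eq_one_of_pow_eq_one hw (ne_of_gt hM)
  have h0 : w ^ t ≠ 0 := by
    intro h
    have : ‖w ^ t‖ = 0 := by rw [h, norm_zero]
    rw [norm_pow, hn, one_pow] at this
    exact one_ne_zero this
  have h1 : w ^ t * (starRingEnd ℂ) (w ^ t) = 1 := by
    rw [Complex.mul_conj']
    rw [norm_pow, hn, one_pow]
    norm_num
  have h2 : w ^ t * w ^ (M - t) = 1 := by
    rw [← pow_add, Nat.add_sub_cancel' ht, hw]
  exact mul_left_cancel₀ h0 (h1.trans h2.symm)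

theorem parseval {M : ℕ} {ζ : ℂ} (hζ : IsPrimitiveRoot ζ M) (hM : 0 < M) (n : ℕ) (hn : n ≤ M)
    (a : ℕ → ℝ) :
    ∑ j ∈ range M, ‖∑ s ∈ range n, (a s : ℂ) * (ζ ^ j) ^ s‖ ^ 2
      = M * ∑ s ∈ range n, a s ^ 2 := by
  apply Complex.ofReal_injective
  push_cast
  have key : ∀ j ∈ range M, ((‖∑ s ∈ range n, (a s : ℂ) * (ζ ^ j) ^ s‖ : ℂ)) ^ 2
      = ∑ s ∈ range n, ∑ t ∈ range n, (a s : ℂ) * (a t : ℂ) * (ζ ^ (s + (M - t))) ^ j := by
    intro j _
    have hw : (ζ ^ j) ^ M = 1 := by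
      rw [← pow_mul, mul_comm, pow_mul, hζ.pow_eq_one, one_pow]
    rw [← Complex.mul_conj', map_sum, Finset.sum_mul_sum]
    refine Finset.sum_congr rfl fun s _ => Finset.sum_congr rfl fun t ht => ?_
    have ht' : t ≤ M := le_trans (le_of_lt (Finset.mem_range.1 ht)) hn
    rw [map_mul, Complex.conj_ofReal, conj_pow_root hM hw t ht']
    have e : (ζ ^ (s + (M - t))) ^ j = (ζ ^ j) ^ s * (ζ ^ j) ^ (M - t) := by
      rw [← pow_add, ← pow_mul, ← pow_mul, mul_comm]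
    rw [e]
    ring
  rw [Finset.sum_congr rfl key, Finset.sum_comm]
  rw [Finset.mul_sum]
  refine Finset.sum_congr rfl fun s hs => ?_
  rw [Finset.sum_comm]
  have h1 : ∀ t ∈ range n, ∑ j ∈ range M, (a s : ℂ) * (a t : ℂ) * (ζ ^ (s + (M - t))) ^ j
      = if s = t then (M : ℂ) * (a s : ℂ) ^ 2 else 0 := by
    intro t ht
    rw [← Finset.mul_sum, orth hζ]
    have hs' : s < M := lt_of_lt_of_le (Finset.mem_range.1 hs) hn
    have ht' : t < M := lt_of_lt_of_le (Finset.mem_range.1 ht) hn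
    have hiff : M ∣ s + (M - t) ↔ s = t := by
      constructor
      · intro hd
        have h2 : s + (M - t) = M :=
          Nat.eq_of_dvd_of_lt_two_mul (by omega) hd (by omega)
        omega
      · intro h
        rw [h, Nat.add_sub_cancel' (le_of_lt ht')]
    by_cases hst : s = t
    · rw [if_pos (hiff.2 hst), if_pos hst, hst]
      ring
    · rw [if_neg (fun h => hst (hiff.1 h)), if_neg hst, mul_zero]
  rw [Finset.sum_congr rfl h1, Finset.sum_ite_eq, if_pos hs]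

/-- The reversed polynomial. -/
noncomputable def rev (N : ℕ) (e : ℕ → ℤ) (z : ℂ) : ℂ :=
  ∑ l ∈ range N, (e (N - 1 - l) : ℂ) * z ^ l

/-- Coefficients of the product of the polynomial with its reversal. -/
def qc (N : ℕ) (e : ℕ → ℤ) (s : ℕ) : ℤ :=
  ∑ k ∈ range N, ∑ l ∈ range N, if k + l = s then e k * e (N - 1 - l) else 0

theorem rev_eq (N : ℕ) (e : ℕ → ℤ) (z : ℂ) (hz : ‖z‖ = 1) :
    rev N e z = z ^ (N - 1) * (starRingEnd ℂ) (lit N e z) := by
  unfold rev lit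
  rw [map_sum, Finset.mul_sum, ← Finset.sum_range_reflect]
  refine Finset.sum_congr rfl fun k hk => ?_
  have hk' : k < N := Finset.mem_range.1 hk
  have h1 : N - 1 - (N - 1 - k) = k := by omega
  have h2 : z ^ (N - 1) = z ^ (N - 1 - k) * z ^ k := by
    rw [← pow_add]
    congr 1
    omega
  have h3 : z ^ k * (starRingEnd ℂ) (z ^ k) = 1 := by
    rw [Complex.mul_conj', norm_pow, hz, one_pow]
    norm_num
  rw [h1, map_mul, map_intCast, map_pow, h2]
  rw [map_pow] at h3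
  calc (e k : ℂ) * z ^ (N - 1 - k)
      = (e k : ℂ) * z ^ (N - 1 - k) * (z ^ k * (starRingEnd ℂ) z ^ k) := by rw [h3, mul_one]
    _ = z ^ (N - 1 - k) * z ^ k * ((e k : ℂ) * (starRingEnd ℂ) z ^ k) := by ring

theorem norm_rev (N : ℕ) (e : ℕ → ℤ) (z : ℂ) (hz : ‖z‖ = 1) : ‖rev N e z‖ = ‖lit N e z‖ := by
  rw [rev_eq N e z hz, norm_mul, norm_pow, hz, one_pow, one_mul, RCLike.norm_conj]

theorem lit_mul_rev (N : ℕ) (e : ℕ → ℤ) (z : ℂ) :
    lit N e z * rev N e z = ∑ s ∈ range (2 * N - 1), ((qc N e s : ℝ) : ℂ) * z ^ s := by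
  unfold lit rev qc
  rw [Finset.sum_mul_sum]
  simp only [Complex.ofReal_intCast]
  simp only [Int.cast_sum, Int.cast_ite, Int.cast_mul, Int.cast_zero,
    Finset.sum_mul, ite_mul, zero_mul]
  conv_rhs => rw [Finset.sum_comm]
  refine Finset.sum_congr rfl fun k hk => ?_
  rw [Finset.sum_comm]
  refine Finset.sum_congr rfl fun l hl => ?_
  have hk' : k < N := Finset.mem_range.1 hk
  have hl' : l < N := Finset.mem_range.1 hl
  rw [Finset.sum_ite_eq, if_pos (Finset.mem_range.2 (by omega)), pow_add]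
  ring

theorem qc_mid (N : ℕ) (hN : 0 < N) (e : ℕ → ℤ) (he : ∀ k < N, e k = 1 ∨ e k = -1) :
    qc N e (N - 1) = N := by
  unfold qc
  have h1 : ∀ k ∈ range N, (∑ l ∈ range N, if k + l = N - 1 then e k * e (N - 1 - l) else 0)
      = 1 := by
    intro k hk
    have hk' : k < N := Finset.mem_range.1 hk
    have h2 : ∀ l, (k + l = N - 1) ↔ (N - 1 - k = l) := by
      intro l
      omega
    simp only [h2]
    rw [Finset.sum_ite_eq, if_pos (Finset.mem_range.2 (by omega))]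
    have h3 : N - 1 - (N - 1 - k) = k := by omega
    rw [h3]
    rcases he k hk' with h | h <;> rw [h] <;> norm_num
  rw [Finset.sum_congr rfl h1]
  simp

theorem qc_odd (N : ℕ) (e : ℕ → ℤ) (he : ∀ k < N, e k = 1 ∨ e k = -1) (t : ℕ) (ht : t < N) :
    Odd (qc N e (2 * t)) := by
  unfold qc
  have h1 : ∀ k ∈ range N,
      (∑ l ∈ range N, if k + l = 2 * t then e k * e (N - 1 - l) else 0)
      = if (k ≤ 2 * t ∧ 2 * t - k < N) then e k * e (N - 1 - (2 * t - k)) else 0 := by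
    intro k hk
    by_cases hkt : k ≤ 2 * t
    · have h2 : ∀ l, (k + l = 2 * t) ↔ (2 * t - k = l) := by
        intro l
        omega
      simp only [h2]
      rw [Finset.sum_ite_eq]
      simp only [Finset.mem_range, hkt, true_and]
    · have h2 : ∀ l, ¬ (k + l = 2 * t) := by
        intro l
        omega
      simp only [h2, if_false, Finset.sum_const_zero]
      rw [if_neg (fun h => hkt h.1)]
  rw [Finset.sum_congr rfl h1, ← Finset.sum_filter]
  have hev : Even (∑ k ∈ (range N).filter (fun k => k ≤ 2 * t ∧ 2 * t - k < N),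
      (e k * e (N - 1 - (2 * t - k)) - 1)) := by
    refine Finset.even_sum _ fun k hk => ?_
    rw [Finset.mem_filter, Finset.mem_range] at hk
    have hk2 : N - 1 - (2 * t - k) < N := by omega
    rcases he k hk.1 with h | h <;> rcases he _ hk2 with h' | h' <;> rw [h, h'] <;> decide
  have hcard : Odd ((range N).filter (fun k => k ≤ 2 * t ∧ 2 * t - k < N)).card := by
    by_cases hc : 2 * t < N
    · have h4 : (range N).filter (fun k => k ≤ 2 * t ∧ 2 * t - k < N) = range (2 * t + 1) := by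
        ext k
        simp only [Finset.mem_filter, Finset.mem_range]
        omega
      rw [h4, Finset.card_range]
      exact ⟨t, rfl⟩
    · have h4 : (range N).filter (fun k => k ≤ 2 * t ∧ 2 * t - k < N)
          = Finset.Icc (2 * t + 1 - N) (N - 1) := by
        ext k
        simp only [Finset.mem_filter, Finset.mem_range, Finset.mem_Icc]
        omega
      rw [h4, Nat.card_Icc]
      exact ⟨N - t - 1, by omega⟩
  have hsplit : ∑ k ∈ (range N).filter (fun k => k ≤ 2 * t ∧ 2 * t - k < N),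
      e k * e (N - 1 - (2 * t - k))
      = ∑ k ∈ (range N).filter (fun k => k ≤ 2 * t ∧ 2 * t - k < N),
        (e k * e (N - 1 - (2 * t - k)) - 1)
        + (((range N).filter (fun k => k ≤ 2 * t ∧ 2 * t - k < N)).card : ℤ) := by
    rw [Finset.sum_sub_distrib]
    simp
  rw [hsplit]
  exact hev.add_odd ((Int.odd_coe_nat _).2 hcard)

theorem qc_sum (N : ℕ) (hN : 0 < N) (e : ℕ → ℤ) (he : ∀ k < N, e k = 1 ∨ e k = -1) :
    (N : ℝ) ^ 2 + (N - 1) ≤ ∑ s ∈ range (2 * N - 1), (qc N e s : ℝ) ^ 2 := by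
  set S : Finset ℕ := (range N).image (fun t => 2 * t) with hS
  have hcard : S.card = N := by
    rw [hS, Finset.card_image_of_injective _ (fun a b h => by simpa using h), Finset.card_range]
  have hsub : insert (N - 1) (S.erase (N - 1)) ⊆ range (2 * N - 1) := by
    intro s hs
    rw [Finset.mem_insert] at hs
    rcases hs with h | h
    · rw [h, Finset.mem_range]
      omega
    · have h2 := Finset.mem_of_mem_erase h
      rw [hS, Finset.mem_image] at h2
      obtain ⟨t, ht, rfl⟩ := h2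
      rw [Finset.mem_range] at ht ⊢
      omega
  have h1 : ∑ s ∈ insert (N - 1) (S.erase (N - 1)), (qc N e s : ℝ) ^ 2
      ≤ ∑ s ∈ range (2 * N - 1), (qc N e s : ℝ) ^ 2 :=
    Finset.sum_le_sum_of_subset_of_nonneg hsub (fun _ _ _ => sq_nonneg _)
  rw [Finset.sum_insert (Finset.notMem_erase _ _), qc_mid N hN e he] at h1
  have h2 : ((S.erase (N - 1)).card : ℝ) ≤ ∑ s ∈ S.erase (N - 1), (qc N e s : ℝ) ^ 2 := by
    have h3 : ∀ s ∈ S.erase (N - 1), (1 : ℝ) ≤ (qc N e s : ℝ) ^ 2 := by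
      intro s hs
      have h4 := Finset.mem_of_mem_erase hs
      rw [hS, Finset.mem_image] at h4
      obtain ⟨t, ht, rfl⟩ := h4
      have hodd := qc_odd N e he t (Finset.mem_range.1 ht)
      have hne : qc N e (2 * t) ≠ 0 := by
        intro h0
        rw [h0] at hodd
        exact absurd hodd (by decide)
      have h5 : (1 : ℤ) ≤ (qc N e (2 * t)) ^ 2 := by
        have := sq_pos_of_ne_zero hne
        linarith
      exact_mod_cast h5
    have h6 := Finset.card_nsmul_le_sum (S.erase (N - 1)) (fun s => (qc N e s : ℝ) ^ 2) 1 h3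
    simpa using h6
  have h7 : (N : ℝ) - 1 ≤ ((S.erase (N - 1)).card : ℝ) := by
    have h8 := Finset.pred_card_le_card_erase (s := S) (a := N - 1)
    rw [hcard] at h8
    have h9 : ((N - 1 : ℕ) : ℝ) ≤ ((S.erase (N - 1)).card : ℝ) := by exact_mod_cast h8
    rw [Nat.cast_sub hN] at h9
    simpa using h9
  push_cast at h1
  linarith

theorem moments (N : ℕ) (hN : 0 < N) (e : ℕ → ℤ) (he : ∀ k < N, e k = 1 ∨ e k = -1) :
    ∃ ζ : ℂ, ‖ζ‖ = 1 ∧
      (∑ j ∈ range (2 * N - 1), ‖lit N e (ζ ^ j)‖ ^ 2 = ((2 * N - 1 : ℕ) : ℝ) * N) ∧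
      (∑ j ∈ range (2 * N - 1), ‖lit N e (ζ ^ j)‖ ^ 4
        = ((2 * N - 1 : ℕ) : ℝ) * ∑ s ∈ range (2 * N - 1), (qc N e s : ℝ) ^ 2) := by
  have hM : 0 < 2 * N - 1 := by omega
  have hζ := Complex.isPrimitiveRoot_exp (2 * N - 1) (ne_of_gt hM)
  have hn1 : ‖Complex.exp (2 * Real.pi * Complex.I / ((2 * N - 1 : ℕ) : ℂ))‖ = 1 :=
    Complex.norm_eq_one_of_pow_eq_one hζ.pow_eq_one (ne_of_gt hM)
  refine ⟨_, hn1, ?_, ?_⟩
  · have h := parseval hζ hM N (by omega) (fun s => (e s : ℝ))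
    have h2 : ∑ s ∈ range N, ((e s : ℝ)) ^ 2 = N := by
      have h3 : ∀ s ∈ range N, ((e s : ℝ)) ^ 2 = 1 := by
        intro s hs
        rcases he s (Finset.mem_range.1 hs) with h | h <;> rw [h] <;> norm_num
      rw [Finset.sum_congr rfl h3]
      simp
    rw [h2] at h
    rw [← h]
    refine Finset.sum_congr rfl fun j _ => ?_
    unfold lit
    simp only [Complex.ofReal_intCast]
  · have h := parseval hζ hM (2 * N - 1) le_rfl (fun s => (qc N e s : ℝ))
    rw [← h]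
    refine Finset.sum_congr rfl fun j _ => ?_
    have hj : ‖Complex.exp (2 * Real.pi * Complex.I / ((2 * N - 1 : ℕ) : ℂ)) ^ j‖ = 1 := by
      rw [norm_pow, hn1, one_pow]
    rw [← lit_mul_rev, norm_mul, norm_rev N e _ hj]
    ring

theorem fourth (N : ℕ) (hN : 0 < N) (e : ℕ → ℤ) (he : ∀ k < N, e k = 1 ∨ e k = -1) :
    ∃ z : ℂ, ‖z‖ = 1 ∧ (N : ℝ) ^ 2 + (N - 1) ≤ ‖lit N e z‖ ^ 4 := by
  obtain ⟨ζ, hζ, _, h4⟩ := moments N hN e he
  have hne : (range (2 * N - 1)).Nonempty := ⟨0, Finset.mem_range.2 (by omega)⟩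
  have hsum : ∑ _j ∈ range (2 * N - 1), ((N : ℝ) ^ 2 + (N - 1))
      ≤ ∑ j ∈ range (2 * N - 1), ‖lit N e (ζ ^ j)‖ ^ 4 := by
    rw [h4, Finset.sum_const, Finset.card_range, nsmul_eq_mul]
    exact mul_le_mul_of_nonneg_left (qc_sum N hN e he) (Nat.cast_nonneg _)
  obtain ⟨j, _, hle⟩ := Finset.exists_le_of_sum_le hne hsum
  exact ⟨ζ ^ j, by rw [norm_pow, hζ, one_pow], hle⟩

theorem variance (N : ℕ) (hN : 0 < N) (e : ℕ → ℤ) (he : ∀ k < N, e k = 1 ∨ e k = -1) :
    ∃ z : ℂ, ‖z‖ = 1 ∧ (N : ℝ) - 1 ≤ (‖lit N e z‖ ^ 2 - N) ^ 2 := by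
  obtain ⟨ζ, hζ, h2, h4⟩ := moments N hN e he
  have hne : (range (2 * N - 1)).Nonempty := ⟨0, Finset.mem_range.2 (by omega)⟩
  have hR : ∑ j ∈ range (2 * N - 1), (‖lit N e (ζ ^ j)‖ ^ 2 - N) ^ 2
      = ((2 * N - 1 : ℕ) : ℝ) * ∑ s ∈ range (2 * N - 1), (qc N e s : ℝ) ^ 2
        - 2 * N * (((2 * N - 1 : ℕ) : ℝ) * N) + ((2 * N - 1 : ℕ) : ℝ) * (N : ℝ) ^ 2 := by
    have e1 : ∀ j ∈ range (2 * N - 1), (‖lit N e (ζ ^ j)‖ ^ 2 - N) ^ 2
        = ‖lit N e (ζ ^ j)‖ ^ 4 - 2 * N * ‖lit N e (ζ ^ j)‖ ^ 2 + (N : ℝ) ^ 2 := by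
      intro j _
      ring
    rw [Finset.sum_congr rfl e1, Finset.sum_add_distrib, Finset.sum_sub_distrib,
      ← Finset.mul_sum, h2, h4, Finset.sum_const, Finset.card_range, nsmul_eq_mul]
  have hsum : ∑ _j ∈ range (2 * N - 1), ((N : ℝ) - 1)
      ≤ ∑ j ∈ range (2 * N - 1), (‖lit N e (ζ ^ j)‖ ^ 2 - N) ^ 2 := by
    rw [hR, Finset.sum_const, Finset.card_range, nsmul_eq_mul]
    have hq := qc_sum N hN e he
    have hMnn : (0 : ℝ) ≤ ((2 * N - 1 : ℕ) : ℝ) := Nat.cast_nonneg _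
    nlinarith [mul_le_mul_of_nonneg_left hq hMnn]
  obtain ⟨j, _, hle⟩ := Finset.exists_le_of_sum_le hne hsum
  exact ⟨ζ ^ j, by rw [norm_pow, hζ, one_pow], hle⟩

theorem normalized (N : ℕ) (hN : 0 < N) (p : ℝ)
    (h : (N : ℝ) - 1 ≤ (p ^ 2 - N) ^ 2) :
    Real.sqrt ((N : ℝ) - 1) / (3 * N) ≤ |p / Real.sqrt N - 1| := by
  have hn : (1 : ℝ) ≤ N := by exact_mod_cast hN
  have hn0 : (0 : ℝ) < N := by linarith
  set r := Real.sqrt ((N : ℝ) - 1) with hr
  set sn := Real.sqrt (N : ℝ) with hsn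
  have hr0 : 0 ≤ r := Real.sqrt_nonneg _
  have hr2 : r ^ 2 = N - 1 := Real.sq_sqrt (by linarith)
  have hsn0 : 0 < sn := Real.sqrt_pos.2 hn0
  have hsn2 : sn ^ 2 = N := Real.sq_sqrt hn0.le
  have hrn : r ≤ N := by nlinarith
  by_contra hcon
  rw [not_le] at hcon
  set x := p / sn with hx
  have hpx : p = x * sn := by
    rw [hx]
    field_simp
  have hp2 : p ^ 2 = x ^ 2 * N := by rw [hpx, mul_pow, hsn2]
  have hb : r / (3 * N) ≤ 1 / 3 := by
    rw [div_le_div_iff₀ (by positivity) (by norm_num)]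
    linarith
  have hx1 := abs_lt.1 (lt_of_lt_of_le hcon hb)
  have hxp : |x + 1| < 3 := by
    rw [abs_lt]
    constructor <;> linarith [hx1.1, hx1.2]
  have habs : |x ^ 2 - 1| < r / N := by
    have e1 : x ^ 2 - 1 = (x - 1) * (x + 1) := by ring
    rw [e1, abs_mul]
    have e2 : r / N = r / (3 * N) * 3 := by
      field_simp
    rw [e2]
    exact mul_lt_mul'' hcon hxp (abs_nonneg _) (abs_nonneg _)
  have hsq : (x ^ 2 - 1) ^ 2 < (r / N) ^ 2 := by
    rw [← sq_abs]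
    exact pow_lt_pow_left₀ habs (abs_nonneg _) (by norm_num)
  have hfin : (p ^ 2 - N) ^ 2 < N - 1 := by
    have e3 : (p ^ 2 - N) ^ 2 = (N : ℝ) ^ 2 * (x ^ 2 - 1) ^ 2 := by
      rw [hp2]
      ring
    have e4 : (N : ℝ) ^ 2 * (r / N) ^ 2 = N - 1 := by
      rw [div_pow, hr2]
      field_simp
    rw [e3, ← e4]
    exact mul_lt_mul_of_pos_left hsq (by positivity)
  linarith

theorem pal_even (N : ℕ) (hN : Even N) (e : ℕ → ℤ) (hpal : ∀ k < N, e (N - 1 - k) = e k) :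
    lit N e (-1) = 0 := by
  unfold lit
  have h := Finset.sum_range_reflect (fun k => (e k : ℂ) * (-1 : ℂ) ^ k) N
  have h2 : ∀ k ∈ range N,
      (e (N - 1 - k) : ℂ) * (-1 : ℂ) ^ (N - 1 - k) = -((e k : ℂ) * (-1) ^ k) := by
    intro k hk
    have hk' := Finset.mem_range.1 hk
    rw [hpal k hk']
    have h3 : (-1 : ℂ) ^ (N - 1 - k) = -(-1) ^ k := by
      rw [Nat.even_iff] at hN
      rcases Nat.even_or_odd k with hk2 | hk2
      · have h4 : Odd (N - 1 - k) := by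
          rw [Nat.odd_iff]
          rw [Nat.even_iff] at hk2
          omega
        rw [h4.neg_one_pow, hk2.neg_one_pow]
      · have h4 : Even (N - 1 - k) := by
          rw [Nat.even_iff]
          rw [Nat.odd_iff] at hk2
          omega
        rw [h4.neg_one_pow, hk2.neg_one_pow]
        norm_num
    rw [h3]
    ring
  rw [Finset.sum_congr rfl h2, Finset.sum_neg_distrib] at h
  linear_combination (-1 / 2 : ℂ) * h

/-- The real trigonometric polynomial attached to a palindromic polynomial of odd length. -/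
noncomputable def gfun (m : ℕ) (e : ℕ → ℤ) (θ : ℝ) : ℝ :=
  ∑ k ∈ range (2 * m + 1), (e k : ℝ) * Real.cos (((k : ℝ) - m) * θ)

theorem gfun_continuous (m : ℕ) (e : ℕ → ℤ) : Continuous (gfun m e) := by
  unfold gfun
  fun_prop

theorem sin_sum_zero (m : ℕ) (e : ℕ → ℤ) (hpal : ∀ k < 2 * m + 1, e (2 * m + 1 - 1 - k) = e k)
    (θ : ℝ) : ∑ k ∈ range (2 * m + 1), (e k : ℝ) * Real.sin (((k : ℝ) - m) * θ) = 0 := by
  have h := Finset.sum_range_reflect (fun k => (e k : ℝ) * Real.sin (((k : ℝ) - m) * θ))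
    (2 * m + 1)
  have h2 : ∀ k ∈ range (2 * m + 1),
      (e (2 * m + 1 - 1 - k) : ℝ) * Real.sin ((((2 * m + 1 - 1 - k : ℕ) : ℝ) - m) * θ)
        = -((e k : ℝ) * Real.sin (((k : ℝ) - m) * θ)) := by
    intro k hk
    have hk' := Finset.mem_range.1 hk
    rw [hpal k hk']
    have h3 : (((2 * m + 1 - 1 - k : ℕ) : ℝ) - m) * θ = -(((k : ℝ) - m) * θ) := by
      have h4 : 2 * m + 1 - 1 - k = 2 * m - k := by omega
      rw [h4, Nat.cast_sub (by omega)]
      push_cast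
      ring
    rw [h3, Real.sin_neg]
    ring
  rw [Finset.sum_congr rfl h2, Finset.sum_neg_distrib] at h
  linarith

theorem pal_factor (m : ℕ) (e : ℕ → ℤ) (hpal : ∀ k < 2 * m + 1, e (2 * m + 1 - 1 - k) = e k)
    (θ : ℝ) :
    lit (2 * m + 1) e (Complex.exp (θ * Complex.I))
      = Complex.exp (m * θ * Complex.I) * (gfun m e θ : ℂ) := by
  have hs := sin_sum_zero m e hpal θ
  have h1 : ∀ k ∈ range (2 * m + 1),
      (e k : ℂ) * Complex.exp (θ * Complex.I) ^ k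
        = Complex.exp (m * θ * Complex.I) *
          (((e k : ℝ) * Real.cos (((k : ℝ) - m) * θ) : ℝ)
            + ((e k : ℝ) * Real.sin (((k : ℝ) - m) * θ) : ℝ) * Complex.I) := by
    intro k _
    have h2 : Complex.exp (θ * Complex.I) ^ k
        = Complex.exp (m * θ * Complex.I) * Complex.exp ((((k : ℝ) - m) * θ : ℝ) * Complex.I) := by
      rw [← Complex.exp_nat_mul, ← Complex.exp_add]
      congr 1
      push_cast
      ring
    have h5 : Complex.exp ((((k : ℝ) - m) * θ : ℝ) * Complex.I)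
        = ((Real.cos (((k : ℝ) - m) * θ) : ℝ) : ℂ)
          + ((Real.sin (((k : ℝ) - m) * θ) : ℝ) : ℂ) * Complex.I := by
      rw [Complex.exp_mul_I, Complex.ofReal_cos, Complex.ofReal_sin]
    rw [h2, h5]
    push_cast
    ring
  unfold lit
  rw [Finset.sum_congr rfl h1, ← Finset.mul_sum, Finset.sum_add_distrib, ← Finset.sum_mul,
    ← Complex.ofReal_sum, ← Complex.ofReal_sum, hs]
  unfold gfun
  simp

theorem pal_odd (m : ℕ) (hm : 0 < m) (e : ℕ → ℤ) (he : ∀ k < 2 * m + 1, e k = 1 ∨ e k = -1)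
    (hpal : ∀ k < 2 * m + 1, e (2 * m + 1 - 1 - k) = e k) :
    ∃ z : ℂ, ‖z‖ = 1 ∧ lit (2 * m + 1) e z = 0 := by
  suffices hz : ∃ θ : ℝ, gfun m e θ = 0 by
    obtain ⟨θ, hθ⟩ := hz
    refine ⟨Complex.exp (θ * Complex.I), Complex.norm_exp_ofReal_mul_I θ, ?_⟩
    rw [pal_factor m e hpal θ, hθ]
    simp
  by_contra hno
  push Not at hno
  have hcont := gfun_continuous m e
  have hsign : (∀ θ, 0 < gfun m e θ) ∨ (∀ θ, gfun m e θ < 0) := by
    rcases lt_or_gt_of_ne (hno 0) with h0 | h0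
    · right
      intro θ
      by_contra hθ
      rw [not_lt] at hθ
      obtain ⟨x, hx⟩ := intermediate_value_univ 0 θ hcont
        (show (0 : ℝ) ∈ Set.Icc (gfun m e 0) (gfun m e θ) from ⟨h0.le, hθ⟩)
      exact hno x hx
    · left
      intro θ
      by_contra hθ
      rw [not_lt] at hθ
      obtain ⟨x, hx⟩ := intermediate_value_univ θ 0 hcont
        (show (0 : ℝ) ∈ Set.Icc (gfun m e θ) (gfun m e 0) from ⟨hθ, h0.le⟩)
      exact hno x hx
  have hM : 0 < 2 * m := by omega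
  have hζ := Complex.isPrimitiveRoot_exp (2 * m) (ne_of_gt hM)
  set ζ := Complex.exp (2 * Real.pi * Complex.I / ((2 * m : ℕ) : ℂ)) with hζdef
  have hζm : ζ ^ m = -1 := by
    have h1 : (ζ ^ m) ^ 2 = 1 := by rw [← pow_mul, mul_comm, hζ.pow_eq_one]
    have h2 : ζ ^ m ≠ 1 := by
      intro h
      have h3 := Nat.le_of_dvd hm ((hζ.pow_eq_one_iff_dvd m).1 h)
      omega
    have h3 : (ζ ^ m - 1) * (ζ ^ m + 1) = 0 := by linear_combination h1
    rcases mul_eq_zero.1 h3 with h4 | h4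
    · exact absurd (sub_eq_zero.1 h4) h2
    · exact eq_neg_of_add_eq_zero_left h4
  have hmC : (m : ℂ) ≠ 0 := by exact_mod_cast (ne_of_gt hm)
  have hval : ∀ j : ℕ, lit (2 * m + 1) e (ζ ^ j)
      = (-1 : ℂ) ^ j * (gfun m e ((j : ℝ) * (Real.pi / m)) : ℂ) := by
    intro j
    have h1 : ζ ^ j = Complex.exp ((((j : ℝ) * (Real.pi / m) : ℝ) : ℂ) * Complex.I) := by
      rw [hζdef, ← Complex.exp_nat_mul]
      congr 1
      push_cast
      field_simp
    have h2 : Complex.exp (m * (((j : ℝ) * (Real.pi / m) : ℝ) : ℂ) * Complex.I)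
        = (-1 : ℂ) ^ j := by
      rw [← Complex.exp_pi_mul_I, ← Complex.exp_nat_mul]
      congr 1
      push_cast
      field_simp
    rw [h1, pal_factor m e hpal _, h2]
  have hA : ∑ j ∈ range (2 * m), (gfun m e ((j : ℝ) * (Real.pi / m)) : ℂ)
      = ((2 * m : ℕ) : ℂ) * (e m : ℂ) := by
    have h1 : ∀ j ∈ range (2 * m), (gfun m e ((j : ℝ) * (Real.pi / m)) : ℂ)
        = ∑ k ∈ range (2 * m + 1), (e k : ℂ) * (ζ ^ (m + k)) ^ j := by
      intro j _
      have h2 : (gfun m e ((j : ℝ) * (Real.pi / m)) : ℂ)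
          = (-1 : ℂ) ^ j * lit (2 * m + 1) e (ζ ^ j) := by
        rw [hval j, ← mul_assoc, ← mul_pow]
        norm_num
      rw [h2]
      unfold lit
      rw [Finset.mul_sum]
      refine Finset.sum_congr rfl fun k _ => ?_
      have h3 : (ζ ^ (m + k)) ^ j = (-1 : ℂ) ^ j * (ζ ^ j) ^ k := by
        rw [pow_add, mul_pow, hζm, pow_right_comm]
      rw [h3]
      ring
    rw [Finset.sum_congr rfl h1, Finset.sum_comm]
    have h3 : ∀ k ∈ range (2 * m + 1), ∑ j ∈ range (2 * m), (e k : ℂ) * (ζ ^ (m + k)) ^ j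
        = if k = m then ((2 * m : ℕ) : ℂ) * (e m : ℂ) else 0 := by
      intro k hk
      rw [← Finset.mul_sum, orth hζ]
      have hk' := Finset.mem_range.1 hk
      have hiff : 2 * m ∣ m + k ↔ k = m := by
        constructor
        · intro hd
          have h4 := Nat.eq_of_dvd_of_lt_two_mul (by omega) hd (by omega)
          omega
        · intro h
          rw [h]
          exact ⟨1, by ring⟩
      by_cases hkm : k = m
      · rw [if_pos (hiff.2 hkm), if_pos hkm, hkm]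
        ring
      · rw [if_neg (fun h => hkm (hiff.1 h)), if_neg hkm, mul_zero]
    rw [Finset.sum_congr rfl h3, Finset.sum_ite_eq', if_pos (Finset.mem_range.2 (by omega))]
  have hB : ∑ j ∈ range (2 * m), (-1 : ℂ) ^ j * (gfun m e ((j : ℝ) * (Real.pi / m)) : ℂ)
      = ((2 * m : ℕ) : ℂ) * ((e 0 : ℂ) + (e 0 : ℂ)) := by
    have h1 : ∀ j ∈ range (2 * m), (-1 : ℂ) ^ j * (gfun m e ((j : ℝ) * (Real.pi / m)) : ℂ)
        = ∑ k ∈ range (2 * m + 1), (e k : ℂ) * (ζ ^ k) ^ j := by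
      intro j _
      rw [← hval j]
      unfold lit
      refine Finset.sum_congr rfl fun k _ => ?_
      rw [pow_right_comm]
    rw [Finset.sum_congr rfl h1, Finset.sum_comm]
    have h3 : ∀ k ∈ range (2 * m + 1), ∑ j ∈ range (2 * m), (e k : ℂ) * (ζ ^ k) ^ j
        = (e k : ℂ) * (if 2 * m ∣ k then ((2 * m : ℕ) : ℂ) else 0) := by
      intro k _
      rw [← Finset.mul_sum, orth hζ]
    rw [Finset.sum_congr rfl h3, Finset.sum_range_succ, if_pos (dvd_refl _)]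
    have h4 : ∑ k ∈ range (2 * m), (e k : ℂ) * (if 2 * m ∣ k then ((2 * m : ℕ) : ℂ) else 0)
        = (e 0 : ℂ) * ((2 * m : ℕ) : ℂ) := by
      rw [Finset.sum_eq_single 0]
      · rw [if_pos (dvd_zero _)]
      · intro k hk hk0
        have hk' := Finset.mem_range.1 hk
        have hnd : ¬ 2 * m ∣ k := by
          intro hd
          have h5 := Nat.le_of_dvd (Nat.pos_of_ne_zero hk0) hd
          omega
        rw [if_neg hnd, mul_zero]
      · intro h
        exact absurd (Finset.mem_range.2 hM) h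
    have h6 : e (2 * m) = e 0 := by
      have h7 := hpal 0 (by omega)
      simpa using h7
    rw [h4, h6]
    ring
  have hA' : ∑ j ∈ range (2 * m), gfun m e ((j : ℝ) * (Real.pi / m)) = ((2 * m : ℕ) : ℝ) * (e m : ℝ) := by
    exact_mod_cast hA
  have hB' : ∑ j ∈ range (2 * m), (-1 : ℝ) ^ j * gfun m e ((j : ℝ) * (Real.pi / m))
      = ((2 * m : ℕ) : ℝ) * ((e 0 : ℝ) + (e 0 : ℝ)) := by
    exact_mod_cast hB
  have hmR : (1 : ℝ) ≤ m := by exact_mod_cast hm
  have hminus : ∑ j ∈ range (2 * m), (1 - (-1 : ℝ) ^ j) * gfun m e ((j : ℝ) * (Real.pi / m))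
      = ((2 * m : ℕ) : ℝ) * (e m : ℝ) - ((2 * m : ℕ) : ℝ) * ((e 0 : ℝ) + (e 0 : ℝ)) := by
    rw [← hA', ← hB', ← Finset.sum_sub_distrib]
    refine Finset.sum_congr rfl fun j _ => ?_
    ring
  have hplus : ∑ j ∈ range (2 * m), (1 + (-1 : ℝ) ^ j) * gfun m e ((j : ℝ) * (Real.pi / m))
      = ((2 * m : ℕ) : ℝ) * (e m : ℝ) + ((2 * m : ℕ) : ℝ) * ((e 0 : ℝ) + (e 0 : ℝ)) := by
    rw [← hA', ← hB', ← Finset.sum_add_distrib]
    refine Finset.sum_congr rfl fun j _ => ?_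
    ring
  have hc1 : ∀ j : ℕ, 0 ≤ 1 - (-1 : ℝ) ^ j := by
    intro j
    rcases neg_one_pow_eq_or ℝ j with h | h <;> rw [h] <;> norm_num
  have hc2 : ∀ j : ℕ, 0 ≤ 1 + (-1 : ℝ) ^ j := by
    intro j
    rcases neg_one_pow_eq_or ℝ j with h | h <;> rw [h] <;> norm_num
  have h2m : ((2 * m : ℕ) : ℝ) = 2 * (m : ℝ) := by push_cast; ring
  rw [h2m] at hminus hplus
  have he0 : (e 0 : ℝ) = 1 ∨ (e 0 : ℝ) = -1 := by
    rcases he 0 (by omega) with h | h <;> rw [h] <;> norm_num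
  have hem : (e m : ℝ) = 1 ∨ (e m : ℝ) = -1 := by
    rcases he m (by omega) with h | h <;> rw [h] <;> norm_num
  rcases hsign with hpos | hneg
  · have h1 : 0 ≤ ∑ j ∈ range (2 * m),
        (1 - (-1 : ℝ) ^ j) * gfun m e ((j : ℝ) * (Real.pi / m)) :=
      Finset.sum_nonneg fun j _ => mul_nonneg (hc1 j) (hpos _).le
    have h2 : 0 ≤ ∑ j ∈ range (2 * m),
        (1 + (-1 : ℝ) ^ j) * gfun m e ((j : ℝ) * (Real.pi / m)) :=
      Finset.sum_nonneg fun j _ => mul_nonneg (hc2 j) (hpos _).le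
    rw [hminus] at h1
    rw [hplus] at h2
    rcases he0 with h0 | h0 <;> rcases hem with h3 | h3 <;> rw [h0, h3] at h1 h2 <;> linarith
  · have h1 : ∑ j ∈ range (2 * m),
        (1 - (-1 : ℝ) ^ j) * gfun m e ((j : ℝ) * (Real.pi / m)) ≤ 0 :=
      Finset.sum_nonpos fun j _ => mul_nonpos_of_nonneg_of_nonpos (hc1 j) (hneg _).le
    have h2 : ∑ j ∈ range (2 * m),
        (1 + (-1 : ℝ) ^ j) * gfun m e ((j : ℝ) * (Real.pi / m)) ≤ 0 :=
      Finset.sum_nonpos fun j _ => mul_nonpos_of_nonneg_of_nonpos (hc2 j) (hneg _).le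
    rw [hminus] at h1
    rw [hplus] at h2
    rcases he0 with h0 | h0 <;> rcases hem with h3 | h3 <;> rw [h0, h3] at h1 h2 <;> linarith

theorem palindromic (N : ℕ) (hN : 2 ≤ N) (e : ℕ → ℤ) (he : ∀ k < N, e k = 1 ∨ e k = -1)
    (hpal : ∀ k < N, e (N - 1 - k) = e k) :
    ∃ z : ℂ, ‖z‖ = 1 ∧ lit N e z = 0 := by
  rcases Nat.even_or_odd N with hev | hodd
  · exact ⟨-1, by simp, pal_even N hev e hpal⟩
  · obtain ⟨m, rfl⟩ := hodd
    exact pal_odd m (by omega) e he hpal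

theorem antipal_one (N : ℕ) (e : ℕ → ℤ) (hpal : ∀ k < N, e (N - 1 - k) = -e k) :
    lit N e 1 = 0 := by
  unfold lit
  have h := Finset.sum_range_reflect (fun k => (e k : ℂ) * (1 : ℂ) ^ k) N
  have h2 : ∀ k ∈ range N,
      (e (N - 1 - k) : ℂ) * (1 : ℂ) ^ (N - 1 - k) = -((e k : ℂ) * 1 ^ k) := by
    intro k hk
    rw [hpal k (Finset.mem_range.1 hk), one_pow, one_pow]
    push_cast
    ring
  rw [Finset.sum_congr rfl h2, Finset.sum_neg_distrib] at h
  linear_combination (-1 / 2 : ℂ) * h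

/-- Quantitative non-flatness of every real polynomial with coefficients plus or minus one, and
zeros on the unit circle for the palindromic and antipalindromic ones. -/
theorem result :
    (∀ (N : ℕ) (e : ℕ → ℤ), 0 < N → (∀ k < N, e k = 1 ∨ e k = -1) →
      (∃ z : ℂ, ‖z‖ = 1 ∧ (N : ℝ) ^ 2 + (N - 1) ≤ ‖lit N e z‖ ^ 4) ∧
      (∃ z : ℂ, ‖z‖ = 1 ∧ (N : ℝ) - 1 ≤ (‖lit N e z‖ ^ 2 - N) ^ 2 ∧
        Real.sqrt ((N : ℝ) - 1) / (3 * N) ≤ |‖lit N e z‖ / Real.sqrt N - 1|)) ∧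
    (∀ (N : ℕ) (e : ℕ → ℤ), 2 ≤ N → (∀ k < N, e k = 1 ∨ e k = -1) →
      (∀ k < N, e (N - 1 - k) = e k) → ∃ z : ℂ, ‖z‖ = 1 ∧ lit N e z = 0) ∧
    (∀ (N : ℕ) (e : ℕ → ℤ), (∀ k < N, e (N - 1 - k) = -e k) → lit N e 1 = 0) := by
  refine ⟨fun N e hN he => ⟨fourth N hN e he, ?_⟩,
    fun N e hN he hpal => palindromic N hN e he hpal, antipal_one⟩
  obtain ⟨z, hz, hle⟩ := variance N hN e he
  exact ⟨z, hz, hle, normalized N hN _ hle⟩

end Vale.Agent.Results.P110.FlatnessDefect
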